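import Vale.Agent.P272.S2B.Barrier
import Vale.Agent.P272.K.AMP.Main.Step0
import Vale.Agent.P272.K.AMP.BIG.H327.Basic
import Vale.Agent.P272.H696.LogDet

/-!
# P272 / GL: the metric `A (a - b w) + K a - i∂∂̄ log tr_a w`
-/

open scoped Manifold ContDiff ComplexOrder Topology Matrix
open Complex Set Filter MeasureTheory Metric

noncomputable section

namespace Vale.Agent.P272.GLM

open Vale.Agent.P272.K Vale.Agent.P272.S2B
open Vale.Agent.P272.K.INT (IsClosedForm)

variable {n : ℕ}

/-- `A (a - b w) + K a - i∂∂̄ log tr_a w` -/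
def w2 {X : Type*} [TopologicalSpace X] (a w : Chart n X → Cm n → Matrix (Fin n) (Fin n) ℂ)
    (A b K : ℝ) : Chart n X → Cm n → Matrix (Fin n) (Fin n) ℂ := fun e z =>
  ((A + K : ℝ) : ℂ) • a e z - ((A * b : ℝ) : ℂ) • w e z -
    cHess (fun y => Real.log (C2.tau (a e) (w e) y)) z

section congr
variable {X : Type*} [TopologicalSpace X] [ChartedSpace (Cm n) X]

lemma isClosedForm_congr {b b' : Chart n X → Cm n → Matrix (Fin n) (Fin n) ℂ}
    (hb : IsClosedForm b) (h : ∀ e x, At e x → b' e =ᶠ[𝓝 (e x)] b e) : IsClosedForm b' where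
  smooth e x hx i j := (hb.smooth e x hx i j).congr_of_eventuallyEq
    (by filter_upwards [h e x hx] with z hz; rw [hz])
  form e e' x hx hx' := by
    rw [(h e x hx).self_of_nhds, (h e' x hx').self_of_nhds]
    exact hb.form e e' x hx hx'
  closed e x hx i k l := by
    have h1 : ∀ i k l, dz i (fun z => b' e z k l) (e x) = dz i (fun z => b e z k l) (e x) :=
      fun i k l => dz_congr (by filter_upwards [h e x hx] with z hz; rw [hz])
    rw [h1, h1, hb.closed e x hx]

end congr

variable {X : Type} [TopologicalSpace X] [ChartedSpace (Cm n) X] [IsManifold 𝓘(ℂ, Cm n) ω X]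
  {w a : Chart n X → Cm n → Matrix (Fin n) (Fin n) ℂ}

/-- `log tr_a w` as a function on `X` -/
def LX (a w : Chart n X → Cm n → Matrix (Fin n) (Fin n) ℂ) (x : X) : ℝ := Real.log (trX a w x)

lemma LX_eventually (ha : IsHermitian a) (hw : IsHermitian w) {e : Chart n X} {x : X}
    (h : At e x) : (fun z => LX a w (e.symm z)) =ᶠ[𝓝 (e x)]
      fun z => Real.log (C2.tau (a e) (w e) z) := by
  filter_upwards [trX_symm_eventually ha hw h] with z hz
  unfold LX
  rw [hz]

lemma smooth_logtau [NeZero n] (ha : IsHermitian a) (hw : IsHermitian w) {e : Chart n X} {x : X}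
    (h : At e x) : ContDiffAt ℝ ∞ (fun z => Real.log (C2.tau (a e) (w e) z)) (e x) := by
  rw [contDiffAt_infty]
  intro m
  exact (contDiffAt_tau ha hw h m).log
    (C2.trace_re_pos (ha.posDef e x h) (hw.posDef e x h)).ne'

lemma smoothFn_LX [NeZero n] (ha : IsHermitian a) (hw : IsHermitian w) :
    SmoothFn (n := n) (LX a w) := fun e x h =>
  (smooth_logtau ha hw h).congr_of_eventuallyEq (LX_eventually ha hw h)

lemma cHess_LX (ha : IsHermitian a) (hw : IsHermitian w) {e : Chart n X} {x : X} (h : At e x) :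
    (fun z => cHess (fun y => Real.log (C2.tau (a e) (w e) y)) z) =ᶠ[𝓝 (e x)]
      fun z => cHess (fun y => LX a w (e.symm y)) z := by
  filter_upwards [(LX_eventually ha hw h).eventuallyEq_nhds] with z hz
  exact (cHess_congr hz).symm

lemma isClosedForm_L [NeZero n] (ha : IsHermitian a) (hw : IsHermitian w) :
    IsClosedForm fun (e : Chart n X) z => cHess (fun y => Real.log (C2.tau (a e) (w e) y)) z :=
  isClosedForm_congr (INT.isClosedForm_cHess (smoothFn_LX ha hw)) fun e x h => cHess_LX ha hw h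

lemma isClosedForm_w2 [NeZero n] (ha : IsKahler a) (hw : IsKahler w) (A b K : ℝ) :
    IsClosedForm (w2 a w A b K) := by
  have h1 := ((INT.IsKahler.isClosedForm ha).smul ((A + K : ℝ) : ℂ)).add
    (((INT.IsKahler.isClosedForm hw).smul (-((A * b : ℝ) : ℂ))).add
      ((isClosedForm_L ha.toIsHermitian hw.toIsHermitian).smul (-1)))
  refine isClosedForm_congr h1 fun e x h => Eventually.of_forall fun z => ?_
  show w2 a w A b K e z = ((A + K : ℝ) : ℂ) • a e z + ((-((A * b : ℝ) : ℂ)) • w e z +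
    (-1 : ℂ) • cHess (fun y => Real.log (C2.tau (a e) (w e) y)) z)
  unfold w2
  rw [neg_smul, neg_smul, one_smul]
  abel

lemma w2_isHermitian [NeZero n] (ha : IsHermitian a) (hw : IsHermitian w) (A b K : ℝ)
    {e : Chart n X} {x : X} (h : At e x) : (w2 a w A b K e (e x)).IsHermitian := by
  unfold w2
  have h2 : (2 : WithTop ℕ∞) ≤ ∞ := two_le_infty
  exact ((AMP.Main.isHermitian_smul_ofReal (ha.posDef e x h).isHermitian _).sub
    (AMP.Main.isHermitian_smul_ofReal (hw.posDef e x h).isHermitian _)).sub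
    (cHess_isHermitian ((smooth_logtau ha hw h).of_le h2))

/-- **GLa** -/
theorem gla [CompactSpace X] [NeZero n] (ha : IsKahler a) (hw : IsKahler w) (A b : ℝ) :
    ∃ K : ℝ, 1 ≤ K ∧ IsKahler (w2 a w A b K) ∧
      ∀ e x, At e x → (w2 a w A b K e (e x) - a e (e x)).PosSemidef := by
  have hcl := isClosedForm_w2 ha hw A b 0
  obtain ⟨C, hC, hb⟩ := AMP.Main.exists_comparison' (h := a)
    (b := fun e z => (-1 : ℂ) • w2 a w A b 0 e z) ha.toIsHermitian (hcl.smul (-1)).smooth
    (hcl.smul (-1)).form (fun e x h => by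
      have h1 := w2_isHermitian ha.toIsHermitian hw.toIsHermitian A b 0 h
      rw [neg_one_smul]
      exact h1.neg)
  have key : ∀ e x, At e x → w2 a w A b (C + 1) e (e x) - a e (e x) =
      (C : ℂ) • a e (e x) - (-1 : ℂ) • w2 a w A b 0 e (e x) := by
    intro e x h
    unfold w2
    push_cast
    simp only [add_smul, one_smul, neg_one_smul, zero_smul]
    abel
  have h2 : ∀ e x, At e x → (w2 a w A b (C + 1) e (e x) - a e (e x)).PosSemidef := by
    intro e x h
    rw [key e x h]
    exact hb e x h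
  refine ⟨C + 1, by linarith, AMP.BIG.H327.isKahler_of_closed (isClosedForm_w2 ha hw A b _)
    fun e x h => ?_, h2⟩
  have h3 := (ha.posDef e x h).add_posSemidef (h2 e x h)
  rwa [add_sub_cancel] at h3

/-- `tr_a (w2)` -/
lemma trace_w2 (ha : IsHermitian a) (A b K : ℝ) {e : Chart n X} {x : X}
    (h : At e x) : ((a e (e x))⁻¹ * w2 a w A b K e (e x)).trace.re =
      (A + K) * n - A * b * C2.tau (a e) (w e) (e x) -
        ((a e (e x))⁻¹ * cHess (fun y => Real.log (C2.tau (a e) (w e) y)) (e x)).trace.re := by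
  unfold w2 C2.tau
  rw [Matrix.mul_sub, Matrix.mul_sub, Matrix.trace_sub, Matrix.trace_sub, Matrix.mul_smul,
    Matrix.mul_smul, Matrix.trace_smul, Matrix.trace_smul,
    Matrix.nonsing_inv_mul _ (isUnit_iff_ne_zero.2 (C2.posDef_det_ne_zero (ha.posDef e x h))),
    Matrix.trace_one]
  simp only [smul_eq_mul, Complex.sub_re, Complex.re_ofReal_mul, Fintype.card_fin,
    Complex.natCast_re]

/-- **GLb** -/
theorem glb [NeZero n] (ha : IsKahler a) (hw : IsKahler w) {A b C5 K : ℝ}
    (hK : 0 < K) (hk : IsKahler (w2 a w A b K))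
    (hCL : ∀ x, ∃ e, At e x ∧ -1 - C5 * C2.tau (a e) (w e) (e x) ≤
      ((a e (e x))⁻¹ * cHess (fun y => Real.log (C2.tau (a e) (w e) y)) (e x)).trace.re)
    {e : Chart n X} {x : X} (h : At e x) :
    Real.log (w2 a w A b K e (e x)).det.re ≤ Real.log (a e (e x)).det.re + n * Real.log K +
      1 / K * (A * n + 1 - (A * b - C5) * trX a w x) := by
  obtain ⟨c, hc, hL⟩ := hCL x
  -- the inequality in the chart `c`
  have hac := ha.posDef c x hc
  have hwc := hk.posDef c x hc
  have hKc : (((K : ℝ) : ℂ) • a c (c x)).PosDef := posDef_ofReal_smul hac hK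
  have h1 := Vale.P272.H696.log_det_le hwc hKc
  have hdet : Real.log (((K : ℝ) : ℂ) • a c (c x)).det.re =
      n * Real.log K + Real.log (a c (c x)).det.re := by
    have hp := Vale.P272.H696.det_re_pos hac
    rw [Matrix.det_smul, Fintype.card_fin, ← Complex.ofReal_pow, Complex.re_ofReal_mul,
      Real.log_mul (pow_pos hK n).ne' hp.ne', Real.log_pow]
  have htr : ((((K : ℝ) : ℂ) • a c (c x))⁻¹ * w2 a w A b K c (c x)).trace.re =
      1 / K * ((a c (c x))⁻¹ * w2 a w A b K c (c x)).trace.re := by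
    have hu : IsUnit (a c (c x)).det := isUnit_iff_ne_zero.2 (C2.posDef_det_ne_zero hac)
    have h2 : (((K : ℝ) : ℂ) • a c (c x))⁻¹ = ((K⁻¹ : ℝ) : ℂ) • (a c (c x))⁻¹ := by
      have hKC : ((K : ℝ) : ℂ) ≠ 0 := by exact_mod_cast hK.ne'
      refine Matrix.inv_eq_left_inv ?_
      rw [Matrix.smul_mul, Matrix.mul_smul, Matrix.nonsing_inv_mul _ hu, smul_smul,
        Complex.ofReal_inv, inv_mul_cancel₀ hKC, one_smul]
    rw [h2, Matrix.smul_mul, Matrix.trace_smul, smul_eq_mul, Complex.re_ofReal_mul, one_div]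
  rw [hdet, htr, trace_w2 ha.toIsHermitian A b K hc, Fintype.card_fin] at h1
  have htx : trX a w x = C2.tau (a c) (w c) (c x) := trX_eq ha.toIsHermitian hw.toIsHermitian hc
  have h3 : Real.log (w2 a w A b K c (c x)).det.re ≤ Real.log (a c (c x)).det.re +
      n * Real.log K + 1 / K * (A * n + 1 - (A * b - C5) * trX a w x) := by
    rw [htx]
    set τ := C2.tau (a c) (w c) (c x)
    set Δ := ((a c (c x))⁻¹ * cHess (fun y => Real.log (C2.tau (a c) (w c) y)) (c x)).trace.re
    have h4 : 1 / K * ((A + K) * n - A * b * τ - Δ) - n =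
        1 / K * (A * n - A * b * τ - Δ) := by
      field_simp
      ring
    have h5 : 1 / K * (A * n - A * b * τ - Δ) ≤ 1 / K * (A * n + 1 - (A * b - C5) * τ) := by
      have : 0 ≤ 1 / K := by positivity
      refine mul_le_mul_of_nonneg_left ?_ this
      linarith
    linarith
  -- change of chart
  have e1 := det_form_re (isClosedForm_w2 ha hw A b K).form h hc
  have e2 := det_form_re ha.toIsHermitian.isForm h hc
  have hp1 := Vale.P272.H696.det_re_pos hwc
  have hp2 := Vale.P272.H696.det_re_pos hac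
  have hJ : 0 < ‖(jacM e c x).det‖ ^ 2 := by
    have := norm_pos_iff.2 (jacM_det_ne_zero h hc)
    positivity
  rw [e1, e2, Real.log_mul hJ.ne' hp1.ne', Real.log_mul hJ.ne' hp2.ne']
  linarith

end Vale.Agent.P272.GLM
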